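import Vale.Agent.P336.H742.FinalK

/-!
# P336: an explicit language which needs `2 ^ (Ω(n log k / k))` gates with bottom fan-in `k`
-/

namespace Vale.Agent.Results.P336.BottomFanIn

open Vale.Agent.P336

/-- There is an explicit language `L` (decided in deterministic polynomial time) such that for
constants `c > 0` and `C₀`, all large `n` and all `k ≥ C₀ log n`, every depth-three OR-AND-OR
circuit with bottom fan-in at most `k` which computes the membership function of `L` on `{0,1}^n`
or its complement has at least `2 ^ (c n log (k / log n) / k)` gates. -/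
theorem result : ∃ L : Set (List Bool), InP L ∧ ∃ c : ℝ, 0 < c ∧ ∃ C₀ : ℝ,
    ∀ᶠ n : ℕ in Filter.atTop, ∀ k : ℕ, C₀ * Real.log n ≤ k →
      ∀ C : Circuit n, (∀ i, (C.lits i).encard ≤ k) →
        ((∀ x, C.Accepts x ↔ slice L n x = true) ∨ (∀ x, C.Accepts x ↔ slice L n x = false)) →
        (2 : ℝ) ^ (c * (n * Real.log (k / Real.log n) / k)) ≤ C.size :=
  H742.mainK

end Vale.Agent.Results.P336.BottomFanIn
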