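import Vale.Agent.P336.H742.Final

/-!
# P336: an explicit language with depth-three complexity `2 ^ (Ω(√(n log n)))`
-/

namespace Vale.Agent.Results.P336.SqrtNLogN

open Vale.Agent.P336

/-- There is an explicit language `L` (decided in deterministic polynomial time) such that for a
constant `c > 0` and all large `n`, both the membership function `f_n` of `L` on `{0,1}^n` and its
complement need depth-three OR-AND-OR circuits with at least `2 ^ (c √(n log n))` gates. -/
theorem result : ∃ L : Set (List Bool), InP L ∧ ∃ c : ℝ, 0 < c ∧ ∀ᶠ n : ℕ in Filter.atTop,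
    (2 : ℝ) ^ (c * Real.sqrt (n * Real.log n)) ≤ S3 (slice L n) ∧
    (2 : ℝ) ^ (c * Real.sqrt (n * Real.log n)) ≤ S3 (fun x => !slice L n x) :=
  H742.main

end Vale.Agent.Results.P336.SqrtNLogN
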